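import Mathlib
import Vale.Agent.Lib.P160.Asymptotic

namespace Vale.Agent.Results.P160.BonferroniLowerBound

open Vale.Agent.Lib.P160

/-- Explicit lower bound for the singularity probability of the random symmetric sign matrix:
`q n ≥ n(n-1) 2^{-n} - n(n-1)(n(n-1)-1) 2^{-2n}` for every `n`, and hence
`q n ≥ (1-ε) n^2 2^{-n}` for all large `n`, for every `ε > 0`. -/
theorem result :
    (∀ n : ℕ, (n : ℝ) * (n - 1) / 2 ^ n -
        (n : ℝ) * (n - 1) * ((n : ℝ) * (n - 1) - 1) / 2 ^ (2 * n) ≤ q n) ∧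
    ∀ ε : ℝ, 0 < ε → ∀ᶠ n : ℕ in Filter.atTop, (1 - ε) * (n : ℝ) ^ 2 / 2 ^ n ≤ q n :=
  ⟨main, asymptotic⟩

end Vale.Agent.Results.P160.BonferroniLowerBound
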